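import Mathlib

/-! P307: abstract elementary classes of coloured sets (= structures in a vocabulary of unary
predicates).  Definitions only. -/

namespace Vale.Agent.Lib.P307

universe u

open Cardinal Function

/-- An abstract elementary class of `Γ`-coloured sets of a fixed universe.  A structure is a set
`M` with a colouring `c : M → Γ`.  `mem M c` says that the structure is in the class.
`emb c c' f`, for `f : M → N`, says that `f` is a class embedding: an injective colour-preserving
map between members of the class whose image is a strong submodel of the target.  The fields are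
the axioms of the problem text written for embeddings. -/
structure ColAEC (Γ : Type u) where
  mem : ∀ (M : Type u), (M → Γ) → Prop
  emb : ∀ {M N : Type u}, (M → Γ) → (N → Γ) → (M → N) → Prop
  emb_inj : ∀ {M N : Type u} {c : M → Γ} {c' : N → Γ} {f : M → N}, emb c c' f → Injective f
  emb_col : ∀ {M N : Type u} {c : M → Γ} {c' : N → Γ} {f : M → N}, emb c c' f →
    ∀ x, c' (f x) = c x
  emb_mem : ∀ {M N : Type u} {c : M → Γ} {c' : N → Γ} {f : M → N}, emb c c' f →
    mem M c ∧ mem N c'
  mem_iso : ∀ {M N : Type u} {c : M → Γ} {c' : N → Γ} (e : M ≃ N), (∀ x, c' (e x) = c x) →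
    mem M c → mem N c'
  emb_iso : ∀ {M N : Type u} {c : M → Γ} {c' : N → Γ} (e : M ≃ N), (∀ x, c' (e x) = c x) →
    mem M c → emb c c' (e : M → N)
  emb_comp : ∀ {M N P : Type u} {c : M → Γ} {c' : N → Γ} {c'' : P → Γ} {f : M → N} {g : N → P},
    emb c c' f → emb c' c'' g → emb c c'' (g ∘ f)
  coherence : ∀ {M0 M1 M2 : Type u} {c0 : M0 → Γ} {c1 : M1 → Γ} {c2 : M2 → Γ}
    {f : M0 → M1} {g : M1 → M2}, Injective f → (∀ x, c1 (f x) = c0 x) →
    emb c1 c2 g → emb c0 c2 (g ∘ f) → emb c0 c1 f
  chain_union : ∀ {U I : Type u} [LinearOrder I] [WellFoundedLT I] [Nonempty I]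
    (cU : U → Γ) (S : I → Set U) (hS : Monotone S), (⋃ i, S i) = Set.univ →
    (∀ i j (h : i ≤ j),
      emb (fun x : S i => cU x) (fun x : S j => cU x) (Set.inclusion (hS h))) →
    mem U cU ∧ ∀ i, emb (fun x : S i => cU x) cU (Subtype.val : S i → U)
  chain_smooth : ∀ {U I : Type u} [LinearOrder I] [WellFoundedLT I] [Nonempty I]
    (cU : U → Γ) (S : I → Set U) (hS : Monotone S), (⋃ i, S i) = Set.univ →
    (∀ i j (h : i ≤ j),
      emb (fun x : S i => cU x) (fun x : S j => cU x) (Set.inclusion (hS h))) →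
    ∀ {N : Type u} (cN : N → Γ) (g : U → N),
      (∀ i, emb (fun x : S i => cU x) cN (fun x : S i => g x)) → emb cU cN g
  ls : ∃ l : Cardinal.{u}, ℵ₀ ≤ l ∧ ∀ (M : Type u) (c : M → Γ), mem M c → ∀ A : Set M,
    ∃ N : Set M, A ⊆ N ∧ emb (fun x : N => c x) c (Subtype.val : N → M) ∧
      Cardinal.mk N ≤ Cardinal.mk A + l

/-- `l` is an infinite cardinal witnessing the Loewenheim-Skolem axiom. -/
def ColAEC.IsLS {Γ : Type u} (K : ColAEC Γ) (l : Cardinal.{u}) : Prop :=
  ℵ₀ ≤ l ∧ ∀ (M : Type u) (c : M → Γ), K.mem M c → ∀ A : Set M,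
    ∃ N : Set M, A ⊆ N ∧ K.emb (fun x : N => c x) c (Subtype.val : N → M) ∧
      Cardinal.mk N ≤ Cardinal.mk A + l

/-- Categoricity in `κ`: there is a model of cardinality `κ` and any two are isomorphic
(an isomorphism is a colour-preserving bijection). -/
def ColAEC.Categorical {Γ : Type u} (K : ColAEC Γ) (κ : Cardinal.{u}) : Prop :=
  (∃ (M : Type u) (c : M → Γ), K.mem M c ∧ Cardinal.mk M = κ) ∧
    ∀ (M N : Type u) (c : M → Γ) (c' : N → Γ), K.mem M c → K.mem N c' →
      Cardinal.mk M = κ → Cardinal.mk N = κ → ∃ e : M ≃ N, ∀ x, c' (e x) = c x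

/-- number of points of colour `γ` -/
def cnt {Γ M : Type u} (c : M → Γ) (γ : Γ) : Cardinal.{u} := Cardinal.mk {x : M // c x = γ}

/-- the class of coloured sets attached to a colour vector `ν`: colours with `ν γ ≤ lam` (small
colours) have exactly `ν γ` points, the other (big) colours have at least `lam` points -/
def InCls {Γ P : Type u} (lam : Cardinal.{u}) (ν : Γ → Cardinal.{u}) (c : P → Γ) : Prop :=
  ∀ γ, (lam < ν γ → lam ≤ cnt c γ) ∧ (ν γ ≤ lam → cnt c γ = ν γ)

/-- the maps of that class: colour-preserving injections that are onto the small colours -/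
def ClsMap {Γ P P' : Type u} (lam : Cardinal.{u}) (ν : Γ → Cardinal.{u}) (c : P → Γ)
    (c' : P' → Γ) (j : P → P') : Prop :=
  Injective j ∧ (∀ x, c' (j x) = c x) ∧ ∀ y, ν (c' y) ≤ lam → y ∈ Set.range j

/-- all maps of the class with target of size at most `κ` are embeddings of `K` -/
def Good {Γ : Type u} (K : ColAEC Γ) (lam : Cardinal.{u}) (ν : Γ → Cardinal.{u})
    (κ : Cardinal.{u}) : Prop :=
  ∀ (P P' : Type u) (c : P → Γ) (c' : P' → Γ) (j : P → P'), InCls lam ν c → InCls lam ν c' →
    ClsMap lam ν c c' j → Cardinal.mk P' ≤ κ → K.emb c c' j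

end Vale.Agent.Lib.P307
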