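import Mathlib
import Vale.Agent.Lib.P307.Defs

/-! U1.  ROUTE.  M ≃ Σ γ, {x // c x = γ} (Equiv.sigmaFiberEquiv c), Equiv.sigmaCongrRight with
equivalences chosen from the cardinal equalities.  exists_colored: P = Σ γ, (ν γ).out, c = Sigma.fst. -/

namespace Vale.Agent.Lib.P307

universe u

open Cardinal Function

theorem exists_equiv_of_cnt {Γ M N : Type u} (c : M → Γ) (c' : N → Γ)
    (h : ∀ γ, cnt c γ = cnt c' γ) : ∃ e : M ≃ N, ∀ x, c' (e x) = c x := by
  have h' : ∀ γ, Nonempty ({x : M // c x = γ} ≃ {x : N // c' x = γ}) :=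
    fun γ => Cardinal.eq.mp (h γ)
  let E : ∀ γ, {x : M // c x = γ} ≃ {x : N // c' x = γ} := fun γ => (h' γ).some
  refine ⟨(Equiv.sigmaFiberEquiv c).symm.trans
    ((Equiv.sigmaCongrRight E).trans (Equiv.sigmaFiberEquiv c')), ?_⟩
  intro x
  simp only [Equiv.trans_apply, Equiv.sigmaFiberEquiv, Equiv.coe_fn_symm_mk, Equiv.coe_fn_mk,
    Equiv.sigmaCongrRight_apply]
  exact (E (c x) ⟨x, rfl⟩).2

theorem cnt_le_of_injective {Γ M N : Type u} (c : M → Γ) (c' : N → Γ) (j : M → N)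
    (hj : Injective j) (hc : ∀ x, c' (j x) = c x) (γ : Γ) : cnt c γ ≤ cnt c' γ := by
  refine Cardinal.mk_le_of_injective
    (f := fun x : {x : M // c x = γ} => (⟨j x.1, (hc x.1).trans x.2⟩ : {x : N // c' x = γ})) ?_
  intro a b hab
  have := congrArg Subtype.val hab
  exact Subtype.ext (hj this)

theorem cnt_eq_of_equiv {Γ M N : Type u} (c : M → Γ) (c' : N → Γ) (e : M ≃ N)
    (he : ∀ x, c' (e x) = c x) (γ : Γ) : cnt c γ = cnt c' γ := by
  refine le_antisymm (cnt_le_of_injective c c' e e.injective he γ)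
    (cnt_le_of_injective c' c e.symm e.symm.injective (fun x => ?_) γ)
  have := he (e.symm x)
  rw [Equiv.apply_symm_apply] at this
  exact this.symm

theorem cnt_le_mk {Γ M : Type u} (c : M → Γ) (γ : Γ) : cnt c γ ≤ Cardinal.mk M :=
  Cardinal.mk_subtype_le _

theorem mk_eq_sum_cnt {Γ M : Type u} (c : M → Γ) : Cardinal.mk M = Cardinal.sum (cnt c) := by
  rw [← Cardinal.mk_congr (Equiv.sigmaFiberEquiv c), Cardinal.mk_sigma]
  rfl

theorem exists_colored {Γ : Type u} (ν : Γ → Cardinal.{u}) :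
    ∃ (P : Type u) (c : P → Γ), ∀ γ, cnt c γ = ν γ := by
  refine ⟨Σ γ, (ν γ).out, Sigma.fst, fun γ => ?_⟩
  have e : {x : (Σ γ, (ν γ).out) // x.1 = γ} ≃ (ν γ).out :=
    { toFun := fun x => x.2 ▸ x.1.2
      invFun := fun y => ⟨⟨γ, y⟩, rfl⟩
      left_inv := by
        rintro ⟨⟨γ', y⟩, h⟩
        simp only at h
        subst h
        rfl
      right_inv := fun y => rfl }
  rw [cnt, Cardinal.mk_congr e, Cardinal.mk_out]

end Vale.Agent.Lib.P307
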