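import Mathlib
import Vale.Agent.Lib.P307.Defs
import Vale.Agent.Lib.P307.Count

/-! U4.  ROUTE.  Small colour (cnt cM γ ≤ lam): every y of colour γ is in range t, so the subtype is
empty.  Big colour: F = {y // cM y = γ} has more than lam points (so it is infinite), the set
B = {y : F | y.1 ∈ range t} has at most mk T ≤ lam points, Cardinal.mk_compl_of_infinite B gives
mk Bᶜ = mk F, and {y : (range t)ᶜ // cM y = γ} ≃ Bᶜ. -/

namespace Vale.Agent.Lib.P307

universe u

open Cardinal Function

open Classical in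
theorem cnt_compl {Γ T M : Type u} {lam : Cardinal.{u}} (hlam : ℵ₀ ≤ lam) (cM : M → Γ)
    (t : T → M) (hT : Cardinal.mk T ≤ lam)
    (hsurj : ∀ y, cnt cM (cM y) ≤ lam → y ∈ Set.range t) (γ : Γ) :
    cnt (fun y : ((Set.range t)ᶜ : Set M) => cM y) γ =
      if lam < cnt cM γ then cnt cM γ else 0 := by
  by_cases h : lam < cnt cM γ
  · rw [if_pos h]
    have hinf : Infinite {y : M // cM y = γ} :=
      Cardinal.infinite_iff.mpr (hlam.trans h.le)
    let B : Set {y : M // cM y = γ} := {y | y.1 ∈ Set.range t}
    have hB : Cardinal.mk B < Cardinal.mk {y : M // cM y = γ} := by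
      refine lt_of_le_of_lt ?_ h
      refine le_trans ?_ hT
      refine le_trans ?_ (Cardinal.mk_range_le (f := t))
      refine Cardinal.mk_le_of_injective
        (f := fun y : B => (⟨y.1.1, y.2⟩ : Set.range t)) ?_
      intro a b hab
      have := congrArg Subtype.val hab
      exact Subtype.ext (Subtype.ext this)
    have hc := Cardinal.mk_compl_of_infinite B hB
    rw [cnt, cnt, ← hc]
    refine Cardinal.mk_congr
      { toFun := fun y => ⟨⟨y.1.1, y.2⟩, y.1.2⟩
        invFun := fun y => ⟨⟨y.1.1, y.2⟩, y.1.2⟩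
        left_inv := fun y => rfl
        right_inv := fun y => rfl }
  · rw [if_neg h]
    rw [cnt, Cardinal.mk_eq_zero_iff]
    refine ⟨fun y => ?_⟩
    have hy : cM y.1.1 = γ := y.2
    have := hsurj y.1.1 (by rw [hy]; exact not_lt.mp h)
    exact y.1.2 this

end Vale.Agent.Lib.P307
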