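import Mathlib
import Vale.Agent.Lib.P307.Defs
import Vale.Agent.Lib.P307.Count

/-! U3.  ROUTE.  For each γ choose A γ ⊆ {x | cU x = γ}: the whole fibre if cnt cU γ ≤ lam, otherwise a
subset of cardinality lam (Cardinal.le_mk_iff_exists_set on the fibre, or le_mk_iff_exists_subset).
S0 = ⋃ γ, A γ.  mk S0 ≤ sum over γ of mk (A γ) ≤ mk Γ * lam ≤ lam * lam = lam
(Cardinal.mk_iUnion_le_sum_mk, Cardinal.sum_le_iSup_lift or sum_const, Cardinal.mul_eq_self). -/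

namespace Vale.Agent.Lib.P307

universe u

open Cardinal Function

theorem exists_core {Γ U : Type u} {lam : Cardinal.{u}} (hlam : ℵ₀ ≤ lam)
    (hΓ : Cardinal.mk Γ ≤ lam) (cU : U → Γ) :
    ∃ S0 : Set U, Cardinal.mk S0 ≤ lam ∧ (∀ x, cnt cU (cU x) ≤ lam → x ∈ S0) ∧
      ∀ γ, lam ≤ cnt cU γ → lam ≤ cnt (fun x : S0 => cU x) γ := by
  classical
  have key : ∀ γ : Γ, ∃ A : Set U, A ⊆ {x | cU x = γ} ∧ Cardinal.mk A ≤ lam ∧
      (cnt cU γ ≤ lam → A = {x | cU x = γ}) ∧ (lam ≤ cnt cU γ → lam ≤ Cardinal.mk A) := by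
    intro γ
    by_cases h : cnt cU γ ≤ lam
    · exact ⟨{x | cU x = γ}, subset_rfl, h, fun _ => rfl, fun h' => h'⟩
    · have h' : lam ≤ Cardinal.mk ({x | cU x = γ} : Set U) := (not_le.mp h).le
      obtain ⟨A, hA, hAc⟩ := Cardinal.le_mk_iff_exists_subset.mp h'
      exact ⟨A, hA, hAc.le, fun h'' => absurd h'' h, fun _ => hAc.ge⟩
  choose A hA1 hA2 hA3 hA4 using key
  refine ⟨⋃ γ, A γ, ?_, ?_, ?_⟩
  · calc Cardinal.mk (⋃ γ, A γ : Set U) ≤ Cardinal.sum (fun γ => Cardinal.mk (A γ)) :=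
          Cardinal.mk_iUnion_le_sum_mk
      _ ≤ Cardinal.sum (fun _ : Γ => lam) := Cardinal.sum_le_sum _ _ hA2
      _ = Cardinal.mk Γ * lam := by simp
      _ ≤ lam * lam := by gcongr
      _ = lam := Cardinal.mul_eq_self hlam
  · intro x hx
    refine Set.mem_iUnion.mpr ⟨cU x, ?_⟩
    rw [hA3 _ hx]
    rfl
  · intro γ hγ
    refine (hA4 γ hγ).trans ?_
    refine Cardinal.mk_le_of_injective
      (f := fun a : A γ => (⟨⟨a.1, Set.mem_iUnion.mpr ⟨γ, a.2⟩⟩, hA1 γ a.2⟩ :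
        {x : (⋃ γ, A γ : Set U) // cU x = γ})) ?_
    intro a b hab
    have := congrArg (fun z => (z.1.1 : U)) hab
    exact Subtype.ext this

end Vale.Agent.Lib.P307
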