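import Mathlib
import Vale.Agent.Lib.P307.Defs
import Vale.Agent.Lib.P307.Count

/-! U5.  Routine facts on subsets with the restricted colouring.  inCls_sub: for a small colour
every point of that colour lies in S, so {x : S // cU x = γ} ≃ {x : U // cU x = γ}. -/

namespace Vale.Agent.Lib.P307

universe u

open Cardinal Function

theorem cnt_mono_sub {Γ U : Type u} (cU : U → Γ) {S T : Set U} (hST : S ⊆ T) (γ : Γ) :
    cnt (fun x : S => cU x) γ ≤ cnt (fun x : T => cU x) γ := by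
  unfold cnt
  refine Cardinal.mk_le_of_injective
    (f := fun x : {x : S // cU x = γ} => (⟨⟨x.1.1, hST x.1.2⟩, x.2⟩ : {x : T // cU x = γ})) ?_
  intro a b hab
  have h1 : a.1.1 = b.1.1 := congrArg (fun z : {x : T // cU x = γ} => z.1.1) hab
  exact Subtype.ext (Subtype.ext h1)

theorem inCls_sub {Γ U : Type u} {lam : Cardinal.{u}} {ν : Γ → Cardinal.{u}} {cU : U → Γ}
    (hU : InCls lam ν cU) (S : Set U) (h1 : ∀ x, ν (cU x) ≤ lam → x ∈ S)
    (h2 : ∀ γ, lam < ν γ → lam ≤ cnt (fun x : S => cU x) γ) :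
    InCls lam ν (fun x : S => cU x) := by
  intro γ
  refine ⟨h2 γ, fun hγ => ?_⟩
  rw [← (hU γ).2 hγ]
  unfold cnt
  refine Cardinal.mk_congr
    { toFun := fun x => ⟨x.1.1, x.2⟩
      invFun := fun x => ⟨⟨x.1, h1 x.1 (by rw [x.2]; exact hγ)⟩, x.2⟩
      left_inv := fun x => rfl
      right_inv := fun x => rfl }

theorem clsMap_inclusion {Γ U : Type u} {lam : Cardinal.{u}} {ν : Γ → Cardinal.{u}} (cU : U → Γ)
    {S T : Set U} (hST : S ⊆ T) (h1 : ∀ x, ν (cU x) ≤ lam → x ∈ S) :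
    ClsMap lam ν (fun x : S => cU x) (fun x : T => cU x) (Set.inclusion hST) := by
  refine ⟨Set.inclusion_injective hST, fun x => rfl, fun y hy => ?_⟩
  exact ⟨⟨y.1, h1 y.1 hy⟩, rfl⟩

theorem clsMap_val {Γ U : Type u} {lam : Cardinal.{u}} {ν : Γ → Cardinal.{u}} (cU : U → Γ)
    (S : Set U) (h1 : ∀ x, ν (cU x) ≤ lam → x ∈ S) :
    ClsMap lam ν (fun x : S => cU x) cU (Subtype.val : S → U) := by
  refine ⟨Subtype.val_injective, fun x => rfl, fun y hy => ?_⟩
  exact ⟨⟨y, h1 y hy⟩, rfl⟩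

theorem clsMap_id {Γ P : Type u} {lam : Cardinal.{u}} {ν : Γ → Cardinal.{u}} (c : P → Γ) :
    ClsMap lam ν c c id :=
  ⟨Function.injective_id, fun _ => rfl, fun y _ => ⟨y, rfl⟩⟩

end Vale.Agent.Lib.P307
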