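import Mathlib
import Vale.Agent.Lib.P307.Defs
import Vale.Agent.Lib.P307.Count

/-! U2.  ROUTE (same as emb_transfer in Results/P307/EmptyVocabulary.lean, with colours).
exists_equiv_of_cnt gives colour-preserving e : S ≃ S' and k : (range j)ᶜ ≃ (range j')ᶜ.  Put
E : M' ≃ M := (Equiv.Set.sumCompl (range j')).symm.trans ((Equiv.sumCongr ((Equiv.ofInjective j' _).symm.trans
(e.symm.trans (Equiv.ofInjective j hj))) k.symm).trans (Equiv.Set.sumCompl (range j))).  E is
colour-preserving (check on range j' and on its complement), E (j' (e s)) = j s, so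
j = E ∘ j' ∘ e is an embedding by emb_iso and emb_comp. -/

namespace Vale.Agent.Lib.P307

universe u

open Cardinal Function

theorem emb_transfer {Γ : Type u} (K : ColAEC Γ) {S M S' M' : Type u} {cS : S → Γ} {cM : M → Γ}
    {cS' : S' → Γ} {cM' : M' → Γ} {j : S → M} {j' : S' → M'} (hj : Injective j)
    (hjc : ∀ s, cM (j s) = cS s) (hj' : K.emb cS' cM' j')
    (h1 : ∀ γ, cnt cS γ = cnt cS' γ)
    (h2 : ∀ γ, cnt (fun y : ((Set.range j)ᶜ : Set M) => cM y) γ =
      cnt (fun y : ((Set.range j')ᶜ : Set M') => cM' y) γ) :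
    K.emb cS cM j := by
  classical
  obtain ⟨e, he⟩ := exists_equiv_of_cnt cS cS' h1
  obtain ⟨k, hk⟩ := exists_equiv_of_cnt _ _ h2
  have hi' := K.emb_inj hj'
  have hc' := K.emb_col hj'
  let E : M' ≃ M :=
    (Equiv.Set.sumCompl (Set.range j')).symm.trans
      ((Equiv.sumCongr ((Equiv.ofInjective j' hi').symm.trans
        (e.symm.trans (Equiv.ofInjective j hj))) k.symm).trans
        (Equiv.Set.sumCompl (Set.range j)))
  have hE : ∀ s : S, E (j' (e s)) = j s := by
    intro s
    have hm : j' (e s) ∈ Set.range j' := ⟨_, rfl⟩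
    simp only [E, Equiv.trans_apply]
    rw [Equiv.Set.sumCompl_symm_apply_of_mem hm]
    rw [Equiv.sumCongr_apply, Sum.map_inl, Equiv.Set.sumCompl_apply_inl]
    simp only [Equiv.trans_apply]
    have h4 : (Equiv.ofInjective j' hi').symm ⟨j' (e s), hm⟩ = e s :=
      Equiv.ofInjective_symm_apply hi' (e s)
    rw [h4, Equiv.symm_apply_apply]
    rfl
  have hE2 : ∀ y (hy : y ∉ Set.range j'), E y = (k.symm ⟨y, hy⟩ : M) := by
    intro y hy
    simp only [E, Equiv.trans_apply]
    rw [Equiv.Set.sumCompl_symm_apply_of_notMem hy]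
    rw [Equiv.sumCongr_apply, Sum.map_inr, Equiv.Set.sumCompl_apply_inr]
  have hEc : ∀ y, cM (E y) = cM' y := by
    intro y
    by_cases hy : y ∈ Set.range j'
    · obtain ⟨s', rfl⟩ := hy
      obtain ⟨s, rfl⟩ := e.surjective s'
      rw [hE, hjc, hc', he]
    · rw [hE2 y hy]
      have := hk (k.symm ⟨y, hy⟩)
      rw [Equiv.apply_symm_apply] at this
      exact this.symm
  have hmem := K.emb_mem hj'
  have hmS : K.mem S cS := K.mem_iso e.symm (fun x => by
    have := he (e.symm x)
    rw [Equiv.apply_symm_apply] at this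
    exact this.symm) hmem.1
  have h3 : K.emb cS cM ((E : M' → M) ∘ (j' ∘ (e : S → S'))) :=
    K.emb_comp (K.emb_comp (K.emb_iso e he hmS) hj') (K.emb_iso E hEc hmem.2)
  have : ((E : M' → M) ∘ (j' ∘ (e : S → S'))) = j := by
    funext s; exact hE s
  rwa [this] at h3

end Vale.Agent.Lib.P307
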