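import Mathlib
import Vale.Agent.Lib.P307.Defs
import Vale.Agent.Lib.P307.Count
import Vale.Agent.Lib.P307.Transfer
import Vale.Agent.Lib.P307.Core
import Vale.Agent.Lib.P307.Compl
import Vale.Agent.Lib.P307.Sub

/-! U6.  ROUTE.  ν = cnt cst.  Given P, P', c, c', j with InCls, ClsMap, mk P' ≤ lam.
(1) A := exists_core for cst; the LS axiom gives N' ⊇ A with emb (restricted cst) cst val and
mk N' ≤ mk A + lam ≤ lam.  (2) cnt of N' (restricted colouring): big colour (lam < ν γ):
lam ≤ cnt A ≤ cnt N' ≤ mk N' ≤ lam; small colour: all points of that colour are in A ⊆ N', so it is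
ν γ (inCls_sub).  (3) cnt c' γ and cnt c γ are the same vector: big: lam ≤ cnt ≤ mk P' ≤ lam (for P use
mk P ≤ mk P'), small: ν γ.  (4) b : P' ≃ N' colour-preserving (exists_equiv_of_cnt);
g := val ∘ b is an embedding (emb_iso, emb_comp; mem P' by mem_iso b.symm).  (5) g ∘ j : P → Mst is
injective, colour-preserving, onto the small colours; cnt_compl for g ∘ j and for val : N' → Mst give
the same complement vector; emb_transfer gives emb c cst (g ∘ j).  (6) coherence gives emb c c' j. -/

namespace Vale.Agent.Lib.P307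

universe u

open Cardinal Function

theorem good_base {Γ : Type u} (K : ColAEC Γ) {lam : Cardinal.{u}} (hLS : K.IsLS lam)
    (hΓ : Cardinal.mk Γ ≤ lam) {Mst : Type u} {cst : Mst → Γ} (hM : K.mem Mst cst) :
    Good K lam (cnt cst) lam := by
  classical
  intro P P' c c' j hP hP' hj hcard
  have hlam : ℵ₀ ≤ lam := hLS.1
  obtain ⟨A, hA1, hA2, hA3⟩ := exists_core hlam hΓ cst
  obtain ⟨N', hAN, hemb, hN'card⟩ := hLS.2 Mst cst hM A
  have hN'lam : Cardinal.mk N' ≤ lam :=
    hN'card.trans ((add_le_add_left hA1 lam).trans (Cardinal.add_eq_self hlam).le)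
  -- the count vector of a member of the class of size at most lam
  have hvec : ∀ (Q : Type u) (cQ : Q → Γ), InCls lam (cnt cst) cQ → Cardinal.mk Q ≤ lam →
      ∀ γ, cnt cQ γ = if lam < cnt cst γ then lam else cnt cst γ := by
    intro Q cQ hQ hQl γ
    split_ifs with h
    · exact le_antisymm ((cnt_le_mk cQ γ).trans hQl) ((hQ γ).1 h)
    · exact (hQ γ).2 (not_lt.mp h)
  have hcstCls : InCls lam (cnt cst) cst := fun γ => ⟨fun h => h.le, fun _ => rfl⟩
  have hN'Cls : InCls lam (cnt cst) (fun x : N' => cst x) := by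
    refine inCls_sub hcstCls N' (fun x hx => hAN (hA2 x hx)) (fun γ hγ => ?_)
    exact (hA3 γ hγ.le).trans (cnt_mono_sub cst hAN γ)
  have hPcard : Cardinal.mk P ≤ lam := (Cardinal.mk_le_of_injective hj.1).trans hcard
  have hcN' := hvec N' (fun x : N' => cst x) hN'Cls hN'lam
  have hcP' := hvec P' c' hP' hcard
  have hcP := hvec P c hP hPcard
  obtain ⟨b, hb⟩ := exists_equiv_of_cnt c' (fun x : N' => cst x)
    (fun γ => (hcP' γ).trans (hcN' γ).symm)
  have hmemN' : K.mem N' (fun x : N' => cst x) := (K.emb_mem hemb).1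
  have hmemP' : K.mem P' c' := by
    refine K.mem_iso b.symm (fun x => ?_) hmemN'
    have := hb (b.symm x)
    rw [Equiv.apply_symm_apply] at this
    exact this.symm
  have hembb : K.emb c' (fun x : N' => cst x) (b : P' → N') := K.emb_iso b hb hmemP'
  have hg : K.emb c' cst ((Subtype.val : N' → Mst) ∘ (b : P' → N')) := K.emb_comp hembb hemb
  have hginj : Injective ((Subtype.val : N' → Mst) ∘ (b : P' → N')) :=
    Subtype.val_injective.comp b.injective
  have hgj : K.emb c cst (((Subtype.val : N' → Mst) ∘ (b : P' → N')) ∘ j) := by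
    refine emb_transfer K (hginj.comp hj.1) (fun s => ?_) hemb
      (fun γ => (hcP γ).trans (hcN' γ).symm) (fun γ => ?_)
    · have h1 := hb (j s)
      have h2 := hj.2.1 s
      simp only [Function.comp_apply]
      exact h1.trans h2
    · rw [cnt_compl hlam cst _ hPcard ?_ γ, cnt_compl hlam cst _ hN'lam ?_ γ]
      · intro y hy
        exact ⟨⟨y, hAN (hA2 y hy)⟩, rfl⟩
      · intro y hy
        have hyN : y ∈ N' := hAN (hA2 y hy)
        have h1 := hb (b.symm ⟨y, hyN⟩)
        rw [Equiv.apply_symm_apply] at h1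
        have h2 : cnt cst (c' (b.symm ⟨y, hyN⟩)) ≤ lam := by
          rw [← h1]; exact hy
        obtain ⟨x, hx⟩ := hj.2.2 _ h2
        refine ⟨x, ?_⟩
        simp only [Function.comp_apply, hx, Equiv.apply_symm_apply]
  exact K.coherence hj.1 hj.2.1 hg hgj

end Vale.Agent.Lib.P307
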