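import Mathlib

/-! P307: filtration of a set of size `κ` by small subsets (proved; copied from the empty
vocabulary hand-in). -/

namespace Vale.Agent.Lib.P307

universe u

open Cardinal Function

/-- the filtration of a set of size `κ` by small subsets containing a given small subset -/
def filt {U : Type u} {κ : Cardinal.{u}} (e : U ≃ κ.ord.ToType) (S0 : Set U)
    (i : κ.ord.ToType) : Set U := S0 ∪ {x | e x < i}

theorem filt_mono {U : Type u} {κ : Cardinal.{u}} (e : U ≃ κ.ord.ToType) (S0 : Set U) :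
    Monotone (filt e S0) := by
  intro i j hij x hx
  rcases hx with hx | hx
  · exact Or.inl hx
  · exact Or.inr (lt_of_lt_of_le hx hij)

theorem subset_filt {U : Type u} {κ : Cardinal.{u}} (e : U ≃ κ.ord.ToType) (S0 : Set U)
    (i : κ.ord.ToType) : S0 ⊆ filt e S0 i := Set.subset_union_left

theorem filt_union {U : Type u} {κ : Cardinal.{u}} (hκ : ℵ₀ ≤ κ) (e : U ≃ κ.ord.ToType)
    (S0 : Set U) : (⋃ i, filt e S0 i) = Set.univ := by
  have := Cardinal.noMaxOrder hκ
  apply Set.eq_univ_of_forall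
  intro x
  obtain ⟨i, hi⟩ := exists_gt (e x)
  exact Set.mem_iUnion.2 ⟨i, Or.inr hi⟩

theorem filt_card_lt {U : Type u} {κ : Cardinal.{u}} (hκ : ℵ₀ ≤ κ) (e : U ≃ κ.ord.ToType)
    (S0 : Set U) (h0 : Cardinal.mk S0 < κ) (i : κ.ord.ToType) :
    Cardinal.mk (filt e S0 i) < κ := by
  refine lt_of_le_of_lt (Cardinal.mk_union_le _ _) (Cardinal.add_lt_of_lt hκ h0 ?_)
  have h1 : Cardinal.mk {x | e x < i} = Cardinal.mk (Set.Iio i) := by
    apply Cardinal.mk_congr
    exact e.subtypeEquiv (fun x => Iff.rfl)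
  rw [h1]
  exact Cardinal.mk_Iio_toType_ord_lt i

theorem exists_equiv_ord {U : Type u} {κ : Cardinal.{u}} (hU : Cardinal.mk U = κ) :
    Nonempty (U ≃ κ.ord.ToType) :=
  Cardinal.eq.1 (by rw [hU, Cardinal.mk_toType, Cardinal.card_ord])

theorem nonempty_ord {κ : Cardinal.{u}} (hκ : ℵ₀ ≤ κ) : Nonempty κ.ord.ToType := by
  apply Cardinal.mk_ne_zero_iff.1
  rw [Cardinal.mk_toType, Cardinal.card_ord]
  exact (lt_of_lt_of_le Cardinal.aleph0_pos hκ).ne'

end Vale.Agent.Lib.P307
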