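import Mathlib
import Vale.Agent.Lib.P307.Defs
import Vale.Agent.Lib.P307.Filt
import Vale.Agent.Lib.P307.Count
import Vale.Agent.Lib.P307.Sub

/-! U7a.  ROUTE (compare good_step in Results/P307/EmptyVocabulary.lean: hincl, E1, C1).
emb_filt: apply ih with κ' = max lam (mk (filt e S0 j)) (< κ by max_lt and filt_card_lt) to the
inclusion filt i ⊆ filt j: InCls by inCls_sub (small points lie in S0 ⊆ filt; big colours: cnt_mono_sub
from S0), ClsMap by clsMap_inclusion.
emb_val_of_small: chain_union for the chain filt e S0 (filt_mono, filt_union, nonempty_ord, emb_filt)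
gives emb (filt i) → U; compose with the inclusion S0 ⊆ filt i (again ih).
emb_of_small_domain: S0 = range j (mk = mk P < κ; contains the small points by ClsMap; cnt of range j
= cnt c via Equiv.ofInjective, cnt_eq_of_equiv); j = val ∘ Equiv.ofInjective j; mem P c comes from ih
applied to id (clsMap_id) with κ' = max lam (mk P). -/

namespace Vale.Agent.Lib.P307

universe u

open Cardinal Function

theorem emb_filt {Γ : Type u} (K : ColAEC Γ) {lam κ : Cardinal.{u}} {ν : Γ → Cardinal.{u}}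
    (hlam : ℵ₀ ≤ lam) (hlt : lam < κ)
    (ih : ∀ κ', κ' < κ → lam ≤ κ' → Good K lam ν κ')
    {U : Type u} {cU : U → Γ} (hU : InCls lam ν cU) (e : U ≃ κ.ord.ToType) (S0 : Set U)
    (h1 : ∀ x, ν (cU x) ≤ lam → x ∈ S0)
    (h2 : ∀ γ, lam < ν γ → lam ≤ cnt (fun x : S0 => cU x) γ)
    (h3 : Cardinal.mk S0 < κ) (i j : κ.ord.ToType) (h : i ≤ j) :
    K.emb (fun x : filt e S0 i => cU x) (fun x : filt e S0 j => cU x)
      (Set.inclusion (filt_mono e S0 h)) := by
  have hκ : ℵ₀ ≤ κ := hlam.trans hlt.le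
  have hIn : ∀ i, InCls lam ν (fun x : filt e S0 i => cU x) := fun i =>
    inCls_sub hU (filt e S0 i) (fun x hx => subset_filt e S0 i (h1 x hx))
      (fun γ hγ => (h2 γ hγ).trans (cnt_mono_sub cU (subset_filt e S0 i) γ))
  exact ih (max lam (Cardinal.mk (filt e S0 j))) (max_lt hlt (filt_card_lt hκ e S0 h3 j))
    (le_max_left _ _) _ _ _ _ _ (hIn i) (hIn j)
    (clsMap_inclusion cU (filt_mono e S0 h) (fun x hx => subset_filt e S0 i (h1 x hx)))
    (le_max_right _ _)

theorem emb_val_of_small {Γ : Type u} (K : ColAEC Γ) {lam κ : Cardinal.{u}}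
    {ν : Γ → Cardinal.{u}} (hlam : ℵ₀ ≤ lam) (hlt : lam < κ)
    (ih : ∀ κ', κ' < κ → lam ≤ κ' → Good K lam ν κ')
    {U : Type u} {cU : U → Γ} (hU : InCls lam ν cU) (hUc : Cardinal.mk U = κ) (S0 : Set U)
    (h1 : ∀ x, ν (cU x) ≤ lam → x ∈ S0)
    (h2 : ∀ γ, lam < ν γ → lam ≤ cnt (fun x : S0 => cU x) γ)
    (h3 : Cardinal.mk S0 < κ) :
    K.emb (fun x : S0 => cU x) cU (Subtype.val : S0 → U) := by
  have hκ : ℵ₀ ≤ κ := hlam.trans hlt.le
  obtain ⟨e⟩ := exists_equiv_ord hUc
  have := nonempty_ord hκ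
  have hch := K.chain_union cU (filt e S0) (filt_mono e S0) (filt_union hκ e S0)
    (fun i j h => emb_filt K hlam hlt ih hU e S0 h1 h2 h3 i j h)
  obtain ⟨i⟩ := nonempty_ord hκ
  have h4 := hch.2 i
  have h5 : K.emb (fun x : S0 => cU x) (fun x : filt e S0 i => cU x)
      (Set.inclusion (subset_filt e S0 i)) :=
    ih (max lam (Cardinal.mk (filt e S0 i))) (max_lt hlt (filt_card_lt hκ e S0 h3 i))
      (le_max_left _ _) _ _ _ _ _ (inCls_sub hU S0 h1 h2)
      (inCls_sub hU (filt e S0 i) (fun x hx => subset_filt e S0 i (h1 x hx))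
        (fun γ hγ => (h2 γ hγ).trans (cnt_mono_sub cU (subset_filt e S0 i) γ)))
      (clsMap_inclusion cU (subset_filt e S0 i) h1) (le_max_right _ _)
  have h6 := K.emb_comp h5 h4
  exact h6

theorem emb_of_small_domain {Γ : Type u} (K : ColAEC Γ) {lam κ : Cardinal.{u}}
    {ν : Γ → Cardinal.{u}} (hlam : ℵ₀ ≤ lam) (hlt : lam < κ)
    (ih : ∀ κ', κ' < κ → lam ≤ κ' → Good K lam ν κ')
    {P P' : Type u} {c : P → Γ} {c' : P' → Γ} {j : P → P'} (hP : InCls lam ν c)
    (hP' : InCls lam ν c') (hj : ClsMap lam ν c c' j) (h1 : Cardinal.mk P < κ)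
    (h2 : Cardinal.mk P' = κ) : K.emb c c' j := by
  have hmem : K.mem P c :=
    (K.emb_mem (ih (max lam (Cardinal.mk P)) (max_lt hlt h1) (le_max_left _ _) P P c c id hP hP
      (clsMap_id c) (le_max_right _ _))).1
  have hcol : ∀ x, (fun y : Set.range j => c' y) (Equiv.ofInjective j hj.1 x) = c x :=
    fun x => hj.2.1 x
  have hval := emb_val_of_small K hlam hlt ih hP' h2 (Set.range j) hj.2.2
    (fun γ hγ => by
      rw [← cnt_eq_of_equiv c (fun y : Set.range j => c' y) (Equiv.ofInjective j hj.1) hcol γ]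
      exact (hP γ).1 hγ)
    (by rw [Cardinal.mk_range_eq j hj.1]; exact h1)
  have hiso := K.emb_iso (c := c) (c' := fun y : Set.range j => c' y)
    (Equiv.ofInjective j hj.1) hcol hmem
  have h6 := K.emb_comp hiso hval
  exact h6

end Vale.Agent.Lib.P307
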