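import Mathlib
import Vale.Agent.Lib.P307.Defs
import Vale.Agent.Lib.P307.Filt
import Vale.Agent.Lib.P307.Count
import Vale.Agent.Lib.P307.Sub
import Vale.Agent.Lib.P307.Core
import Vale.Agent.Lib.P307.StepA

/-! U7b.  ROUTE (compare the end of good_step in Results/P307/EmptyVocabulary.lean).  Let j : P → P' be
a ClsMap with mk P' ≤ κ.  If mk P' < κ use ih with κ' = max lam (mk P').  If mk P' = κ and mk P < κ use
emb_of_small_domain.  If mk P = κ: S0 := exists_core for c (mk S0 ≤ lam < κ; a small colour has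
cnt c γ = ν γ ≤ lam, so its points are in S0; a big colour has lam ≤ cnt c γ, so lam ≤ cnt S0 γ);
e : P ≃ κ.ord.ToType; chain_smooth for filt e S0 (emb_filt) and g = j; each restriction
(fun x : filt e S0 i => j x) is a ClsMap from a set of size < κ (onto the small colours because the
small points of P lie in S0), so it is an embedding by emb_of_small_domain. -/

namespace Vale.Agent.Lib.P307

universe u

open Cardinal Function

theorem good_step {Γ : Type u} (K : ColAEC Γ) {lam κ : Cardinal.{u}} {ν : Γ → Cardinal.{u}}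
    (hlam : ℵ₀ ≤ lam) (hΓ : Cardinal.mk Γ ≤ lam) (hlt : lam < κ)
    (ih : ∀ κ', κ' < κ → lam ≤ κ' → Good K lam ν κ') : Good K lam ν κ := by
  intro P P' c c' j hP hP' hj hcard
  have hκ : ℵ₀ ≤ κ := hlam.trans hlt.le
  rcases lt_or_eq_of_le hcard with hlt' | heq'
  · exact ih (max lam (Cardinal.mk P')) (max_lt hlt hlt') (le_max_left _ _) P P' c c' j hP hP' hj
      (le_max_right _ _)
  · have hPle : Cardinal.mk P ≤ κ := heq' ▸ Cardinal.mk_le_of_injective hj.1
    rcases lt_or_eq_of_le hPle with hPlt | hPeq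
    · exact emb_of_small_domain K hlam hlt ih hP hP' hj hPlt heq'
    · obtain ⟨S0, hS0c, hS0a, hS0b⟩ := exists_core hlam hΓ c
      obtain ⟨e⟩ := exists_equiv_ord hPeq
      have h1 : ∀ x, ν (c x) ≤ lam → x ∈ S0 := fun x hx =>
        hS0a x (by rw [(hP (c x)).2 hx]; exact hx)
      have h2 : ∀ γ, lam < ν γ → lam ≤ cnt (fun x : S0 => c x) γ := fun γ hγ =>
        hS0b γ ((hP γ).1 hγ)
      have h3 : Cardinal.mk S0 < κ := lt_of_le_of_lt hS0c hlt
      have := nonempty_ord hκ
      refine K.chain_smooth c (filt e S0) (filt_mono e S0) (filt_union hκ e S0)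
        (fun i j' h => emb_filt K hlam hlt ih hP e S0 h1 h2 h3 i j' h) c' j (fun i => ?_)
      have hin : InCls lam ν (fun x : filt e S0 i => c x) :=
        inCls_sub hP _ (fun x hx => subset_filt e S0 i (h1 x hx))
          (fun γ hγ => (h2 γ hγ).trans (cnt_mono_sub c (subset_filt e S0 i) γ))
      have hcm : ClsMap lam ν (fun x : filt e S0 i => c x) c' (fun x : filt e S0 i => j x) := by
        refine ⟨fun a b hab => Subtype.ext (hj.1 hab), fun x => hj.2.1 x, fun y hy => ?_⟩
        obtain ⟨x, rfl⟩ := hj.2.2 y hy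
        have hx : ν (c x) ≤ lam := by rw [← hj.2.1 x]; exact hy
        exact ⟨⟨x, subset_filt e S0 i (h1 x hx)⟩, rfl⟩
      exact emb_of_small_domain K hlam hlt ih hin hP' hcm (filt_card_lt hκ e S0 h3 i) heq'

end Vale.Agent.Lib.P307
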