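import Mathlib
import Vale.Agent.Lib.P307.Defs
import Vale.Agent.Lib.P307.Sub
import Vale.Agent.Lib.P307.Base
import Vale.Agent.Lib.P307.StepB

/-! U8.  ROUTE.  good_all: WellFoundedLT.induction on κ, good_base for κ = lam, good_step otherwise.
mem_of_inCls: good_all at κ = max lam (mk P) applied to id (clsMap_id), then emb_mem. -/

namespace Vale.Agent.Lib.P307

universe u

open Cardinal Function

theorem good_all {Γ : Type u} (K : ColAEC Γ) {lam : Cardinal.{u}} (hLS : K.IsLS lam)
    (hΓ : Cardinal.mk Γ ≤ lam) {Mst : Type u} {cst : Mst → Γ} (hM : K.mem Mst cst) :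
    ∀ κ, lam ≤ κ → Good K lam (cnt cst) κ := by
  intro κ
  induction κ using WellFoundedLT.induction with
  | _ κ ih =>
    intro hκ
    rcases eq_or_lt_of_le hκ with h | h
    · rw [← h]
      exact good_base K hLS hΓ hM
    · exact good_step K hLS.1 hΓ h (fun κ' h1 h2 => ih κ' h1 h2)

theorem mem_of_inCls {Γ : Type u} (K : ColAEC Γ) {lam : Cardinal.{u}} (hLS : K.IsLS lam)
    (hΓ : Cardinal.mk Γ ≤ lam) {Mst : Type u} {cst : Mst → Γ} (hM : K.mem Mst cst)
    {P : Type u} {c : P → Γ} (h : InCls lam (cnt cst) c) : K.mem P c := by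
  have hg := good_all K hLS hΓ hM (max lam (Cardinal.mk P)) (le_max_left _ _)
  exact (K.emb_mem (hg P P c c id h h (clsMap_id c) (le_max_right _ _))).1

end Vale.Agent.Lib.P307
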