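import Mathlib
import Vale.Agent.Lib.P307.Defs
import Vale.Agent.Lib.P307.Count

/-! U9.  Cardinal arithmetic from mk M = sum (cnt c) (mk_eq_sum_cnt).
exists_big: otherwise mk M ≤ mk Γ * lam ≤ lam.  mk_eq_of_vector: κ = cnt c γ0 ≤ mk P ≤ mk Γ * κ = κ.
cnt_eq_mk_of_unique_big: split M into colour γ0 and the rest; the rest has at most mk Γ * lam ≤ lam
points, so mk M ≤ cnt c γ0 + lam; as lam < mk M this forces cnt c γ0 = mk M
(if cnt c γ0 < mk M then Cardinal.add_lt_of_lt gives a contradiction). -/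

namespace Vale.Agent.Lib.P307

universe u

open Cardinal Function

private theorem mk_le_of_cnt_le {Γ M : Type u} {b : Cardinal.{u}} (hb : ℵ₀ ≤ b)
    (hΓ : Cardinal.mk Γ ≤ b) (c : M → Γ) (h : ∀ γ, cnt c γ ≤ b) : Cardinal.mk M ≤ b := by
  calc Cardinal.mk M = Cardinal.sum (cnt c) := mk_eq_sum_cnt c
    _ ≤ Cardinal.sum (fun _ : Γ => b) := Cardinal.sum_le_sum _ _ h
    _ = Cardinal.mk Γ * b := by simp
    _ ≤ b * b := by gcongr
    _ = b := Cardinal.mul_eq_self hb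

theorem exists_big {Γ M : Type u} {lam : Cardinal.{u}} (hlam : ℵ₀ ≤ lam)
    (hΓ : Cardinal.mk Γ ≤ lam) (c : M → Γ) (h : lam < Cardinal.mk M) :
    ∃ γ, lam < cnt c γ := by
  by_contra hcon
  push Not at hcon
  exact absurd (mk_le_of_cnt_le hlam hΓ c hcon) (not_le.mpr h)

theorem mk_eq_of_vector {Γ P : Type u} {lam κ : Cardinal.{u}} (hlam : ℵ₀ ≤ lam)
    (hΓ : Cardinal.mk Γ ≤ lam) (hlt : lam < κ) (c : P → Γ) (h1 : ∀ γ, cnt c γ ≤ κ) (γ0 : Γ)
    (h0 : cnt c γ0 = κ) : Cardinal.mk P = κ := by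
  refine le_antisymm (mk_le_of_cnt_le (hlam.trans hlt.le) (hΓ.trans hlt.le) c h1) ?_
  rw [← h0]
  exact cnt_le_mk c γ0

theorem cnt_eq_mk_of_unique_big {Γ M : Type u} {lam : Cardinal.{u}} (hlam : ℵ₀ ≤ lam)
    (hΓ : Cardinal.mk Γ ≤ lam) (c : M → Γ) (h : lam < Cardinal.mk M) (γ0 : Γ)
    (hu : ∀ γ, lam < cnt c γ → γ = γ0) : cnt c γ0 = Cardinal.mk M := by
  refine le_antisymm (cnt_le_mk c γ0) ?_
  by_contra hcon
  have hlt : cnt c γ0 < Cardinal.mk M := not_le.mp hcon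
  have hb : max (cnt c γ0) lam < Cardinal.mk M := max_lt hlt h
  have hle : Cardinal.mk M ≤ max (cnt c γ0) lam := by
    refine mk_le_of_cnt_le (hlam.trans (le_max_right _ _)) (hΓ.trans (le_max_right _ _)) c ?_
    intro γ
    by_cases hγ : lam < cnt c γ
    · rw [hu γ hγ]; exact le_max_left _ _
    · exact (not_lt.mp hγ).trans (le_max_right _ _)
  exact absurd hle (not_le.mpr hb)

end Vale.Agent.Lib.P307
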