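import Mathlib
import Vale.Agent.Lib.P307.Defs
import Vale.Agent.Lib.P307.Count
import Vale.Agent.Lib.P307.All
import Vale.Agent.Lib.P307.Card

/-! U10.  ROUTE.  Let ν = cnt c for a model (M, c) with lam < mk M.
exists_model_of_vector: exists_colored ν' gives (P, cP) with cnt cP = ν'; it is InCls lam ν, so it is a
model by mem_of_inCls.
unique_big: suppose γ1 ≠ γ2 are big.  ν1 γ = if lam < ν γ then κ else ν γ;  ν2 γ = if γ = γ1 then κ
else if lam < ν γ then lam else ν γ.  Both vectors give models (exists_model_of_vector) of size κ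
(mk_eq_of_vector with γ0 = γ1), so they are isomorphic by categoricity, and cnt_eq_of_equiv at γ2
gives κ = lam, absurd.
inflate_vector: the model with vector ν1 has size κ (a big colour exists by exists_big), so it is
isomorphic to (Mst, cst); cnt_eq_of_equiv. -/

namespace Vale.Agent.Lib.P307

universe u

open Cardinal Function

theorem exists_model_of_vector {Γ : Type u} (K : ColAEC Γ) {lam : Cardinal.{u}}
    (hLS : K.IsLS lam) (hΓ : Cardinal.mk Γ ≤ lam) {M : Type u} {c : M → Γ} (hM : K.mem M c)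
    (ν' : Γ → Cardinal.{u}) (h1 : ∀ γ, lam < cnt c γ → lam ≤ ν' γ)
    (h2 : ∀ γ, cnt c γ ≤ lam → ν' γ = cnt c γ) :
    ∃ (P : Type u) (cP : P → Γ), K.mem P cP ∧ ∀ γ, cnt cP γ = ν' γ := by
  obtain ⟨P, cP, hP⟩ := exists_colored ν'
  refine ⟨P, cP, mem_of_inCls K hLS hΓ hM ?_, hP⟩
  intro γ
  refine ⟨fun h => ?_, fun h => ?_⟩
  · rw [hP γ]; exact h1 γ h
  · rw [hP γ]; exact h2 γ h

/-- the inflated model: all big colours get `κ` points -/
private theorem exists_inflated {Γ : Type u} (K : ColAEC Γ) {lam κ : Cardinal.{u}}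
    (hLS : K.IsLS lam) (hΓ : Cardinal.mk Γ ≤ lam) (hlt : lam < κ)
    {M : Type u} {c : M → Γ} (hM : K.mem M c) {γ0 : Γ} (h0 : lam < cnt c γ0) :
    ∃ (P : Type u) (cP : P → Γ), K.mem P cP ∧ Cardinal.mk P = κ ∧
      (∀ γ, lam < cnt c γ → cnt cP γ = κ) ∧ (∀ γ, cnt c γ ≤ lam → cnt cP γ = cnt c γ) := by
  classical
  obtain ⟨P, cP, hP, hc⟩ := exists_model_of_vector K hLS hΓ hM
    (fun γ => if lam < cnt c γ then κ else cnt c γ)
    (fun γ h => by simp only [if_pos h]; exact hlt.le)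
    (fun γ h => by simp only [if_neg (not_lt.mpr h)])
  have hbig : ∀ γ, lam < cnt c γ → cnt cP γ = κ := fun γ h => by
    rw [hc γ]; simp only [if_pos h]
  have hsmall : ∀ γ, cnt c γ ≤ lam → cnt cP γ = cnt c γ := fun γ h => by
    rw [hc γ]; simp only [if_neg (not_lt.mpr h)]
  refine ⟨P, cP, hP, ?_, hbig, hsmall⟩
  refine mk_eq_of_vector hLS.1 hΓ hlt cP (fun γ => ?_) γ0 (hbig γ0 h0)
  by_cases h : lam < cnt c γ
  · exact (hbig γ h).le
  · rw [hsmall γ (not_lt.mp h)]; exact (not_lt.mp h).trans hlt.le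

theorem unique_big {Γ : Type u} (K : ColAEC Γ) {lam κ : Cardinal.{u}} (hLS : K.IsLS lam)
    (hΓ : Cardinal.mk Γ ≤ lam) (hlt : lam < κ) (hcat : K.Categorical κ)
    {M : Type u} {c : M → Γ} (hM : K.mem M c) {γ1 γ2 : Γ}
    (h1 : lam < cnt c γ1) (h2 : lam < cnt c γ2) : γ1 = γ2 := by
  classical
  by_contra hne
  obtain ⟨P1, c1, hP1, hs1, hb1, -⟩ := exists_inflated K hLS hΓ hlt hM h1
  obtain ⟨P2, c2, hP2, hc2⟩ := exists_model_of_vector K hLS hΓ hM
    (fun γ => if γ = γ1 then κ else if lam < cnt c γ then lam else cnt c γ)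
    (fun γ h => by
      by_cases hg : γ = γ1
      · simp only [if_pos hg]; exact hlt.le
      · simp only [if_neg hg, if_pos h]; exact le_rfl)
    (fun γ h => by
      have hg : γ ≠ γ1 := by
        rintro rfl
        exact absurd h (not_le.mpr h1)
      simp only [if_neg hg, if_neg (not_lt.mpr h)])
  have hs2 : Cardinal.mk P2 = κ := by
    refine mk_eq_of_vector hLS.1 hΓ hlt c2 (fun γ => ?_) γ1 (by rw [hc2 γ1]; simp)
    rw [hc2 γ]
    by_cases hg : γ = γ1
    · simp only [if_pos hg]; exact le_rfl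
    · by_cases h : lam < cnt c γ
      · simp only [if_neg hg, if_pos h]; exact hlt.le
      · simp only [if_neg hg, if_neg h]; exact (not_lt.mp h).trans hlt.le
  obtain ⟨e, he⟩ := hcat.2 P1 P2 c1 c2 hP1 hP2 hs1 hs2
  have := cnt_eq_of_equiv c1 c2 e he γ2
  rw [hb1 γ2 h2, hc2 γ2] at this
  simp only [if_neg (Ne.symm hne), if_pos h2] at this
  exact absurd this (ne_of_gt hlt)

open Classical in
theorem inflate_vector {Γ : Type u} (K : ColAEC Γ) {lam κ : Cardinal.{u}} (hLS : K.IsLS lam)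
    (hΓ : Cardinal.mk Γ ≤ lam) (hlt : lam < κ) (hcat : K.Categorical κ)
    {M : Type u} {c : M → Γ} (hM : K.mem M c) (hsize : lam < Cardinal.mk M)
    {Mst : Type u} {cst : Mst → Γ} (hMst : K.mem Mst cst) (hc : Cardinal.mk Mst = κ) (γ : Γ) :
    (if lam < cnt c γ then κ else cnt c γ) = cnt cst γ := by
  obtain ⟨γ0, h0⟩ := exists_big hLS.1 hΓ c hsize
  obtain ⟨P1, c1, hP1, hs1, hb1, hsm1⟩ := exists_inflated K hLS hΓ hlt hM h0
  obtain ⟨e, he⟩ := hcat.2 P1 Mst c1 cst hP1 hMst hs1 hc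
  have := cnt_eq_of_equiv c1 cst e he γ
  by_cases h : lam < cnt c γ
  · rw [if_pos h, ← this, hb1 γ h]
  · rw [if_neg h, ← this, hsm1 γ (not_lt.mp h)]

end Vale.Agent.Lib.P307
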