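import Mathlib
import Vale.Agent.Lib.P307.Defs
import Vale.Agent.Lib.P307.Count
import Vale.Agent.Lib.P307.Card
import Vale.Agent.Lib.P307.Shape

/-! U11.  ROUTE.  Let (Mst, cst) be the model of size κ, ν = cnt cst, κ' > lam.
Existence: exists_model_of_vector with ν' γ = if lam < ν γ then κ' else ν γ; its size is κ' by
mk_eq_of_vector (a big colour exists by exists_big).
Uniqueness: for models (M, c), (N, c') of size κ' show cnt c γ = cnt c' γ for all γ, then
exists_equiv_of_cnt.  By inflate_vector, (if lam < cnt c γ then κ else cnt c γ) = ν γ and the same for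
c'.  If lam < cnt c γ then ν γ = κ > lam, so lam < cnt c' γ too (otherwise cnt c' γ = ν γ = κ > lam);
by unique_big and cnt_eq_mk_of_unique_big both counts equal κ'.  If cnt c γ ≤ lam then ν γ = cnt c γ ≤ lam,
so cnt c' γ ≤ lam as well (otherwise ν γ = κ) and cnt c' γ = ν γ. -/

namespace Vale.Agent.Lib.P307

universe u

open Cardinal Function

theorem main {Γ : Type u} (K : ColAEC Γ) {lam κ : Cardinal.{u}} (hLS : K.IsLS lam)
    (hΓ : Cardinal.mk Γ ≤ lam) (hlt : lam < κ) (hcat : K.Categorical κ) :
    ∀ κ', lam < κ' → K.Categorical κ' := by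
  classical
  intro κ' hκ'
  obtain ⟨Mst, cst, hMst, hc⟩ := hcat.1
  have hlam := hLS.1
  constructor
  · obtain ⟨γ0, hγ0⟩ := exists_big hlam hΓ cst (by rw [hc]; exact hlt)
    obtain ⟨P, cP, hP, hcnt⟩ := exists_model_of_vector K hLS hΓ hMst
      (fun γ => if lam < cnt cst γ then κ' else cnt cst γ)
      (fun γ h => by simp only [if_pos h]; exact hκ'.le)
      (fun γ h => by simp only [if_neg (not_lt.mpr h)])
    refine ⟨P, cP, hP, mk_eq_of_vector hlam hΓ hκ' cP (fun γ => ?_) γ0
      (by rw [hcnt, if_pos hγ0])⟩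
    rw [hcnt]
    split_ifs with h
    · exact le_rfl
    · exact (not_lt.mp h).trans hκ'.le
  · intro M N c c' hM hN hMc hNc
    apply exists_equiv_of_cnt
    intro γ
    have i1 := inflate_vector K hLS hΓ hlt hcat hM (by rw [hMc]; exact hκ') hMst hc γ
    have i2 := inflate_vector K hLS hΓ hlt hcat hN (by rw [hNc]; exact hκ') hMst hc γ
    by_cases h : lam < cnt c γ
    · rw [if_pos h] at i1
      have h' : lam < cnt c' γ := by
        by_contra hcon
        rw [if_neg hcon] at i2
        apply hcon
        rw [i2, ← i1]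
        exact hlt
      have e1 := cnt_eq_mk_of_unique_big hlam hΓ c (by rw [hMc]; exact hκ') γ
        (fun γ' hγ' => unique_big K hLS hΓ hlt hcat hM hγ' h)
      have e2 := cnt_eq_mk_of_unique_big hlam hΓ c' (by rw [hNc]; exact hκ') γ
        (fun γ' hγ' => unique_big K hLS hΓ hlt hcat hN hγ' h')
      rw [e1, e2, hMc, hNc]
    · rw [if_neg h] at i1
      have h' : ¬ lam < cnt c' γ := by
        intro hcon
        rw [if_pos hcon] at i2
        apply h
        rw [i1, ← i2]
        exact hlt
      rw [if_neg h'] at i2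
      rw [i1, i2]

end Vale.Agent.Lib.P307
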